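import Vale.Agent.P113.H965.Halt

/-!
Part 7: halting is recursively enumerable, and the compiler output is computable.
-/

namespace Vale.Agent.P113.H965

open Vale.Agent.P113

lemma encode_natCast (n : ℕ) : Encodable.encode (n : ℤ) = 2 * n := by
  rfl

lemma primrec_natCast : Primrec (fun n : ℕ => (n : ℤ)) := by
  rw [← Primrec.encode_iff]
  exact Primrec.nat_double.of_eq fun n => (encode_natCast n).symm

lemma primrec_ratCode : Primrec (fun x : ℕ × ℕ => (⟨(x.1 : ℤ), x.2⟩ : RatCode)) := by
  have h : Primrec (fun x : ℕ × ℕ => ratEquiv (⟨(x.1 : ℤ), x.2⟩ : RatCode)) :=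
    (Primrec.pair (primrec_natCast.comp Primrec.fst) Primrec.snd).of_eq fun _ => rfl
  exact (Primrec.of_equiv_iff ratEquiv).1 h

lemma primrec_transTerm : Primrec transTerm := by
  have h : Primrec (fun r : RatCode => termEquiv (transTerm r)) := by
    refine (Primrec.pair Primrec.id (Primrec.const ((termEquiv (transTerm ⟨0, 0⟩)).2))).of_eq ?_
    intro r
    rfl
  exact (Primrec.of_equiv_iff termEquiv).1 h

lemma computable_last (num den : ℕ → ℕ) (hn : Computable num) (hd : Computable den) :
    Computable (fun k : ℕ => transTerm ⟨(num k : ℤ), den k⟩) :=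
  ((primrec_transTerm.comp primrec_ratCode).to_comp.comp (Computable.pair hn hd)).of_eq
    fun _ => rfl

lemma computable_list (L : List Term) (num den : ℕ → ℕ) (hn : Computable num)
    (hd : Computable den) : Computable (fun k : ℕ => L ++ [transTerm ⟨(num k : ℤ), den k⟩]) := by
  have h2 : Computable (fun k : ℕ => transTerm ⟨(num k : ℤ), den k⟩ :: ([] : List Term)) :=
    (Primrec.list_cons.to_comp).comp (computable_last num den hn hd) (Computable.const [])
  exact (Primrec.list_append.to_comp).comp (Computable.const L) h2

theorem part7 : Part7 := by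
  refine ⟨part7a, ?_⟩
  intro L num den hn hd
  exact ((computable_list L num den hn hd).comp Computable.encode).of_eq fun _ => rfl

end Vale.Agent.P113.H965
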