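import Vale.Agent.P113.H965.Sim

/-!
The halting predicate of one-tape Turing machines is recursively enumerable.
-/

namespace Vale.Agent.P113.H965

open Vale.Agent.P113

/-- decision whether the machine is in a halting state after n steps -/
def hb (p : Machine × List ℕ) (n : ℕ) : Bool :=
  decide (((sstep p.1.rules)^[n] (p.1.start, [], p.2)).1 ∈ p.1.halting)

lemma hlt_iff (p : Machine × List ℕ) : p.1.HaltsOn p.2 ↔ ∃ n, hb p n = true := by
  unfold Machine.HaltsOn hb
  refine exists_congr fun n => ?_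
  rw [decide_eq_true_iff]
  have := (rel_iterate p.1 (rel_init p.1 p.2) n).1
  rw [this]

lemma primrec_mem : PrimrecRel (fun (l : List ℕ) (a : ℕ) => a ∈ l) := by
  have h : PrimrecRel (fun (l : List ℕ) (b : ℕ) => ∃ a ∈ l, a = b) :=
    PrimrecRel.exists_mem_list (R := fun a b : ℕ => a = b) Primrec.eq
  refine h.of_eq ?_
  intro l a
  simp

lemma primrec_hb : Primrec₂ hb := by
  have h1 : Primrec (fun x : (Machine × List ℕ) × ℕ => x.1.1.rules) :=
    primrec_rules.comp (Primrec.fst.comp Primrec.fst)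
  have h2 : Primrec (fun x : (Machine × List ℕ) × ℕ =>
      ((x.1.1.start, ([] : List ℕ), x.1.2) : SC)) :=
    Primrec.pair (primrec_start.comp (Primrec.fst.comp Primrec.fst))
      (Primrec.pair (Primrec.const []) (Primrec.snd.comp Primrec.fst))
  have h3 : Primrec (fun x : (Machine × List ℕ) × ℕ =>
      (sstep x.1.1.rules)^[x.2] (x.1.1.start, [], x.1.2)) :=
    primrec_iterate.comp (Primrec.pair (Primrec.pair h1 h2) Primrec.snd)
  have h4 : Primrec (fun x : (Machine × List ℕ) × ℕ => x.1.1.halting) :=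
    primrec_halting.comp (Primrec.fst.comp Primrec.fst)
  have h5 : PrimrecPred (fun x : (Machine × List ℕ) × ℕ =>
      ((sstep x.1.1.rules)^[x.2] (x.1.1.start, [], x.1.2)).1 ∈ x.1.1.halting) :=
    primrec_mem.comp h4 (Primrec.fst.comp h3)
  exact h5.decide

/-- **The halting predicate is recursively enumerable.** -/
theorem re_hlt : REPred (fun p : Machine × List ℕ => p.1.HaltsOn p.2) := by
  have h : Partrec (fun p : Machine × List ℕ =>
      Nat.rfind (fun n => Part.some (hb p n) : ℕ →. Bool)) :=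
    Partrec.rfind (primrec_hb.to_comp).partrec₂
  refine h.dom_re.of_eq ?_
  intro p
  rw [hlt_iff]
  constructor
  · intro hd
    obtain ⟨n, hn, -⟩ := Nat.rfind_dom.1 hd
    exact ⟨n, by simpa using (Part.mem_some_iff.1 hn).symm⟩
  · rintro ⟨n, hn⟩
    exact Nat.rfind_dom.2 ⟨n, Part.mem_some_iff.2 hn.symm, fun _ => trivial⟩

/-- the halting predicate on codes -/
theorem part7a : REPred (fun k : ℕ =>
    ∃ M w, Encodable.encode ((M, w) : Machine × List ℕ) = k ∧ M.HaltsOn w) := by
  have h : Partrec (fun n : ℕ => ((Encodable.decode₂ (Machine × List ℕ) n) :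
      Part (Machine × List ℕ)).bind fun a =>
        Part.assert (a.1.HaltsOn a.2) fun _ => Part.some ()) := by
    refine Partrec.bind (Computable.ofOption Primrec.decode₂.to_comp) ?_
    exact (Partrec.comp re_hlt Computable.snd).to₂
  refine h.dom_re.of_eq ?_
  intro n
  rw [Part.dom_iff_mem]
  constructor
  · rintro ⟨y, hy⟩
    obtain ⟨a, ha, hy⟩ := Part.mem_bind_iff.1 hy
    rw [Part.mem_ofOption, Encodable.mem_decode₂] at ha
    obtain ⟨h1, -⟩ := Part.mem_assert_iff.1 hy
    exact ⟨a.1, a.2, ha, h1⟩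
  · rintro ⟨M, w, h1, h2⟩
    refine ⟨(), Part.mem_bind_iff.2 ⟨(M, w), ?_, ?_⟩⟩
    · rw [Part.mem_ofOption, Encodable.mem_decode₂]
      exact h1
    · exact Part.mem_assert_iff.2 ⟨h2, Part.mem_some _⟩

end Vale.Agent.P113.H965
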