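import Vale.Agent.P113.Iface

/-!
Two-list simulation of a one-tape Turing machine and primitive recursiveness of its runs.
-/

namespace Vale.Agent.P113.H965

open Vale.Agent.P113

/-- The contents of a two sided tape, relative to the head: `R` from the head cell on to the
right, `L` to the left of the head. -/
def val (L R : List ℕ) : ℤ → ℕ
  | Int.ofNat n => R.getD n 0
  | Int.negSucc n => L.getD n 0

lemma val_moveR (L R : List ℕ) (i : ℤ) : val (R.headI :: L) R.tail i = val L R (i + 1) := by
  rcases i with n | n
  · show R.tail.getD n 0 = R.getD (n + 1) 0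
    cases R <;> simp
  · cases n with
    | zero =>
      show (R.headI :: L).getD 0 0 = R.getD 0 0
      cases R <;> simp
    | succ m =>
      show (R.headI :: L).getD (m + 1) 0 = L.getD m 0
      simp

lemma val_moveL (L R : List ℕ) (i : ℤ) : val L.tail (L.headI :: R) i = val L R (i - 1) := by
  rcases i with n | n
  · cases n with
    | zero =>
      show (L.headI :: R).getD 0 0 = L.getD 0 0
      cases L <;> simp
    | succ m =>
      have : (Int.ofNat (m + 1) - 1 : ℤ) = Int.ofNat m := by simp
      rw [this]
      show (L.headI :: R).getD (m + 1) 0 = R.getD m 0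
      simp
  · show L.tail.getD n 0 = L.getD (n + 1) 0
    cases L <;> simp

lemma val_write (L R : List ℕ) (s : ℕ) (i : ℤ) :
    val L (s :: R.tail) i = if i = 0 then s else val L R i := by
  rcases i with n | n
  · cases n with
    | zero => simp [val]
    | succ m =>
      have h : (Int.ofNat (m + 1) : ℤ) ≠ 0 := by
        have : (Int.ofNat (m + 1) : ℤ) = (m : ℤ) + 1 := rfl
        omega
      rw [if_neg h]
      show (s :: R.tail).getD (m + 1) 0 = R.getD (m + 1) 0
      cases R <;> simp
  · have h : (Int.negSucc n : ℤ) ≠ 0 := by simp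
    rw [if_neg h]
    rfl

lemma val_zero (L R : List ℕ) : val L R 0 = R.headI := by
  show R.getD 0 0 = R.headI
  cases R <;> simp

/-- configuration of the simulation: state, left part, right part -/
abbrev SC := ℕ × List ℕ × List ℕ

/-- move of the head -/
def mv : Move → List ℕ × List ℕ → List ℕ × List ℕ
  | .stay, t => t
  | .left, t => (t.1.tail, t.1.headI :: t.2)
  | .right, t => (t.2.headI :: t.1, t.2.tail)

lemma val_mv (d : Move) (t : List ℕ × List ℕ) (i : ℤ) :
    val (mv d t).1 (mv d t).2 i = val t.1 t.2 (i + d.shift) := by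
  cases d with
  | stay => simp [mv, Move.shift]
  | left =>
    show val t.1.tail (t.1.headI :: t.2) i = val t.1 t.2 (i + (-1))
    rw [val_moveL]; rfl
  | right =>
    show val (t.2.headI :: t.1) t.2.tail i = val t.1 t.2 (i + 1)
    rw [val_moveR]

/-- does the rule `r` apply in the state `k.1` with the symbol `k.2`? -/
def app (k : ℕ × ℕ) (r : Rule) : Bool := decide (r.q = k.1 ∧ r.a = k.2)

/-- one step of the simulation; without a rule nothing changes -/
def sstep (M : List Rule) (c : SC) : SC :=
  ((M[M.findIdx (app (c.1, c.2.2.headI))]?).map fun r =>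
    (r.q', mv r.d (c.2.1, r.b :: c.2.2.tail))).getD c

/-- the simulation relation -/
def Rel (c : SC) (z : Config) : Prop :=
  c.1 = z.state ∧ ∀ i, z.tape (z.head + i) = val c.2.1 c.2.2 i

lemma rel_step (M : Machine) {c : SC} {z : Config} (h : Rel c z) :
    Rel (sstep M.rules c) (M.step z) := by
  obtain ⟨h1, h2⟩ := h
  have e1 : c.2.2.headI = z.tape z.head := by
    have := h2 0
    rw [add_zero, val_zero] at this
    exact this.symm
  have e : (fun r : Rule => decide (r.q = z.state ∧ r.a = z.tape z.head)) =
      app (c.1, c.2.2.headI) := by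
    funext r
    rw [app, h1, e1]
  unfold sstep Machine.step
  rw [e, List.find?_eq_getElem?_findIdx]
  rcases hr : M.rules[M.rules.findIdx (app (c.1, c.2.2.headI))]? with _ | r
  · exact ⟨h1, h2⟩
  · refine ⟨rfl, ?_⟩
    intro i
    show Function.update z.tape z.head r.b (z.head + r.d.shift + i) =
      val (mv r.d (c.2.1, r.b :: c.2.2.tail)).1 (mv r.d (c.2.1, r.b :: c.2.2.tail)).2 i
    rw [val_mv]
    show _ = val c.2.1 (r.b :: c.2.2.tail) (i + r.d.shift)
    rw [val_write]
    by_cases h0 : i + r.d.shift = 0
    · rw [if_pos h0, show z.head + r.d.shift + i = z.head by omega, Function.update_self]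
    · rw [if_neg h0, Function.update_of_ne (by omega), ← h2, show z.head + r.d.shift + i =
        z.head + (i + r.d.shift) by ring]

lemma rel_iterate (M : Machine) {c : SC} {z : Config} (h : Rel c z) (n : ℕ) :
    Rel ((sstep M.rules)^[n] c) (M.step^[n] z) := by
  induction n with
  | zero => exact h
  | succ n ih =>
    rw [Function.iterate_succ_apply', Function.iterate_succ_apply']
    exact rel_step M ih

lemma rel_init (M : Machine) (w : List ℕ) : Rel (M.start, [], w) (M.init w) := by
  refine ⟨rfl, ?_⟩
  intro i
  show (if 0 ≤ 0 + i then w.getD (0 + i).toNat 0 else 0) = val [] w i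
  rw [zero_add]
  rcases i with n | n
  · simp [val]
  · have : ¬ (0 ≤ Int.negSucc n) := by
      simp
    simp [val, this]

/-! ### primitive recursiveness -/

lemma primrec_ruleEquiv : Primrec (fun r : Rule => ruleEquiv r) := Primrec.of_equiv

lemma primrec_machineEquiv : Primrec (fun M : Machine => machineEquiv M) := Primrec.of_equiv

lemma primrec_moveEquiv : Primrec (fun d : Move => moveEquiv d) := Primrec.of_equiv

lemma primrec_q : Primrec (fun r : Rule => r.q) :=
  (Primrec.fst.comp primrec_ruleEquiv).of_eq fun _ => rfl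

lemma primrec_a : Primrec (fun r : Rule => r.a) :=
  (Primrec.fst.comp (Primrec.snd.comp primrec_ruleEquiv)).of_eq fun _ => rfl

lemma primrec_q' : Primrec (fun r : Rule => r.q') :=
  (Primrec.fst.comp (Primrec.snd.comp (Primrec.snd.comp primrec_ruleEquiv))).of_eq fun _ => rfl

lemma primrec_b : Primrec (fun r : Rule => r.b) :=
  (Primrec.fst.comp (Primrec.snd.comp (Primrec.snd.comp (Primrec.snd.comp
    primrec_ruleEquiv)))).of_eq fun _ => rfl

lemma primrec_d : Primrec (fun r : Rule => r.d) :=
  (Primrec.snd.comp (Primrec.snd.comp (Primrec.snd.comp (Primrec.snd.comp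
    primrec_ruleEquiv)))).of_eq fun _ => rfl

lemma primrec_start : Primrec (fun M : Machine => M.start) :=
  (Primrec.fst.comp primrec_machineEquiv).of_eq fun _ => rfl

lemma primrec_halting : Primrec (fun M : Machine => M.halting) :=
  (Primrec.fst.comp (Primrec.snd.comp primrec_machineEquiv)).of_eq fun _ => rfl

lemma primrec_rules : Primrec (fun M : Machine => M.rules) :=
  (Primrec.snd.comp (Primrec.snd.comp primrec_machineEquiv)).of_eq fun _ => rfl

/-- the move as a function of its code -/
lemma mv_eq (d : Move) (t : List ℕ × List ℕ) :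
    (if moveEquiv d = 0 then (t.1.tail, t.1.headI :: t.2)
      else if moveEquiv d = 1 then t else (t.2.headI :: t.1, t.2.tail)) = mv d t := by
  cases d <;> rfl

lemma primrec_mv : Primrec₂ mv := by
  have hd : Primrec (fun p : Move × (List ℕ × List ℕ) => moveEquiv p.1) :=
    primrec_moveEquiv.comp Primrec.fst
  have a1 : Primrec (fun x : Move × (List ℕ × List ℕ) => x.2.1) := Primrec.fst.comp Primrec.snd
  have a2 : Primrec (fun x : Move × (List ℕ × List ℕ) => x.2.2) := Primrec.snd.comp Primrec.snd
  have h := Primrec.ite (Primrec.eq.comp hd (Primrec.const (0 : Fin 3)))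
    (Primrec.pair (Primrec.list_tail.comp a1)
      (Primrec.list_cons.comp (Primrec.list_headI.comp a1) a2))
    (Primrec.ite (Primrec.eq.comp hd (Primrec.const (1 : Fin 3)))
      (Primrec.snd (α := Move) (β := List ℕ × List ℕ))
      (Primrec.pair (Primrec.list_cons.comp (Primrec.list_headI.comp a2) a1)
        (Primrec.list_tail.comp a2)))
  exact h.of_eq fun p => mv_eq p.1 p.2

lemma primrec_app : Primrec₂ app := by
  have h1 : PrimrecPred (fun x : (ℕ × ℕ) × Rule => x.2.q = x.1.1) :=
    Primrec.eq.comp (primrec_q.comp Primrec.snd) (Primrec.fst.comp Primrec.fst)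
  have h2 : PrimrecPred (fun x : (ℕ × ℕ) × Rule => x.2.a = x.1.2) :=
    Primrec.eq.comp (primrec_a.comp Primrec.snd) (Primrec.snd.comp Primrec.fst)
  exact (h1.and h2).decide

lemma primrec_sstep : Primrec₂ sstep := by
  have hk : Primrec (fun p : List Rule × SC => (p.2.1, p.2.2.2.headI)) :=
    Primrec.pair (Primrec.fst.comp Primrec.snd)
      (Primrec.list_headI.comp (Primrec.snd.comp (Primrec.snd.comp Primrec.snd)))
  have ha : Primrec₂ (fun (p : List Rule × SC) (r : Rule) => app (p.2.1, p.2.2.2.headI) r) :=
    primrec_app.comp (hk.comp Primrec.fst) Primrec.snd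
  have hl : Primrec (fun p : List Rule × SC =>
      p.1[p.1.findIdx (app (p.2.1, p.2.2.2.headI))]?) :=
    Primrec.list_getElem?.comp Primrec.fst (Primrec.list_findIdx Primrec.fst ha)
  have hf : Primrec₂ (fun (p : List Rule × SC) (r : Rule) =>
      ((r.q', mv r.d (p.2.2.1, r.b :: p.2.2.2.tail)) : SC)) := by
    have a1 : Primrec (fun x : (List Rule × SC) × Rule => x.1.2.2.1) :=
      Primrec.fst.comp (Primrec.snd.comp (Primrec.snd.comp Primrec.fst))
    have a2 : Primrec (fun x : (List Rule × SC) × Rule => x.1.2.2.2) :=
      Primrec.snd.comp (Primrec.snd.comp (Primrec.snd.comp Primrec.fst))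
    exact Primrec.pair (primrec_q'.comp Primrec.snd) (primrec_mv.comp (primrec_d.comp Primrec.snd)
      (Primrec.pair a1 (Primrec.list_cons.comp (primrec_b.comp Primrec.snd)
        (Primrec.list_tail.comp a2))))
  exact Primrec.option_getD.comp (Primrec.option_map hl hf) Primrec.snd

lemma primrec_iterate :
    Primrec (fun p : (List Rule × SC) × ℕ => (sstep p.1.1)^[p.2] p.1.2) := by
  have := Primrec.nat_iterate (f := fun p : (List Rule × SC) × ℕ => p.2)
    (g := fun p : (List Rule × SC) × ℕ => p.1.2)
    (h := fun (p : (List Rule × SC) × ℕ) (c : SC) => sstep p.1.1 c) Primrec.snd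
    (Primrec.snd.comp Primrec.fst)
    (primrec_sstep.comp (Primrec.fst.comp (Primrec.fst.comp Primrec.fst)) Primrec.snd)
  exact this

end Vale.Agent.P113.H965
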